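import Vale.Agent.Lib.P302.DataG29x24

/-!
An explicit bin packing instance with `OPT - LP` at least `29/24`, which exceeds `77/64` and `6/5`.
-/

open Vale.Agent.Lib.P302 in
/-- There is a bin packing instance `I` with `OPT(I) - LP(I) ≥ 29/24 > 6/5`. -/
theorem Vale.Agent.Results.P302.Gap29x24.result :
    ∃ I : List ℚ, IsInstance I ∧ ((29 : ℝ) / 24) ≤ (OPT I : ℝ) - LP I :=
  ⟨_, Vale.Agent.Lib.P302.G29x24.gap⟩
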